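import Mathlib
import Vale.Agent.P260.H573.BlockF

/-!
# P260, block X2: families of `p`-adic representations of bounded degree of an amenable group
-/

open Matrix

namespace Vale.Agent.P260.H520

/-- padding a matrix by an identity block -/
noncomputable def padHom {R : Type} [CommRing R] {m C : ℕ} (h : m ≤ C) :
    Matrix (Fin m) (Fin m) R →* Matrix (Fin C) (Fin C) R where
  toFun M := Matrix.reindex (finSumFinEquiv.trans (finCongr (Nat.add_sub_cancel' h)))
    (finSumFinEquiv.trans (finCongr (Nat.add_sub_cancel' h)))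
    (Matrix.fromBlocks M 0 0 (1 : Matrix (Fin (C - m)) (Fin (C - m)) R))
  map_one' := by
    rw [Matrix.fromBlocks_one, Matrix.reindex_apply, Matrix.submatrix_one_equiv]
  map_mul' M N := by
    have h1 : Matrix.fromBlocks (M * N) 0 0 (1 : Matrix (Fin (C - m)) (Fin (C - m)) R) =
        Matrix.fromBlocks M 0 0 1 * Matrix.fromBlocks N 0 0 1 := by
      rw [Matrix.fromBlocks_multiply]; simp
    simp only [Matrix.reindex_apply]
    rw [h1, Matrix.submatrix_mul_equiv]

theorem padHom_injective {R : Type} [CommRing R] {m C : ℕ} (h : m ≤ C) :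
    Function.Injective (padHom (R := R) h) := by
  intro M N hMN
  have h1 := (Matrix.reindex (finSumFinEquiv.trans (finCongr (Nat.add_sub_cancel' h)))
    (finSumFinEquiv.trans (finCongr (Nat.add_sub_cancel' h)))).injective hMN
  exact (Matrix.fromBlocks_inj.1 h1).1

/-- the values of a matrix representation of a finitely generated group have entries in a finitely
generated ring -/
theorem exists_entries {G : Type} [Group G] (hfg : Group.FG G) {A : Type} [CommRing A] {C : ℕ}
    (ρ : G →* Matrix (Fin C) (Fin C) A) :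
    ∃ s : Finset A, ∀ g a b, ρ g a b ∈ Algebra.adjoin ℤ (s : Set A) := by
  classical
  obtain ⟨T, hT⟩ := Group.fg_def.1 hfg
  let s : Finset A := (T ×ˢ (Finset.univ : Finset (Fin C × Fin C))).image
      (fun t => ρ t.1 t.2.1 t.2.2) ∪
    (T ×ˢ (Finset.univ : Finset (Fin C × Fin C))).image (fun t => ρ t.1⁻¹ t.2.1 t.2.2)
  refine ⟨s, fun g => ?_⟩
  have hg : g ∈ Subgroup.closure (T : Set G) := by rw [hT]; trivial
  have key : (∀ a b, ρ g a b ∈ Algebra.adjoin ℤ (s : Set A)) ∧
      (∀ a b, ρ g⁻¹ a b ∈ Algebra.adjoin ℤ (s : Set A)) := by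
    induction hg using Subgroup.closure_induction with
    | mem x hx =>
      refine ⟨fun a b => Algebra.subset_adjoin ?_, fun a b => Algebra.subset_adjoin ?_⟩
      · simp only [s, Finset.coe_union, Finset.coe_image, Set.mem_union, Set.mem_image]
        exact Or.inl ⟨(x, (a, b)), by simpa using hx, rfl⟩
      · simp only [s, Finset.coe_union, Finset.coe_image, Set.mem_union, Set.mem_image]
        exact Or.inr ⟨(x, (a, b)), by simpa using hx, rfl⟩
    | one =>
      have h1 : ∀ a b, ρ 1 a b ∈ Algebra.adjoin ℤ (s : Set A) := by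
        intro a b
        rw [map_one, Matrix.one_apply]
        split_ifs
        · exact one_mem _
        · exact zero_mem _
      exact ⟨h1, by rw [inv_one]; exact h1⟩
    | mul x y _ _ hx hy =>
      refine ⟨fun a b => ?_, fun a b => ?_⟩
      · rw [map_mul, Matrix.mul_apply]
        exact sum_mem fun c _ => mul_mem (hx.1 _ _) (hy.1 _ _)
      · rw [_root_.mul_inv_rev, map_mul, Matrix.mul_apply]
        exact sum_mem fun c _ => mul_mem (hy.2 _ _) (hx.2 _ _)
    | inv x _ hx => exact ⟨hx.2, by rw [inv_inv]; exact hx.1⟩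
  exact key.1

/-- a matrix representation over a domain of characteristic zero -/
theorem solv_domain {G : Type} [Group G] (hfg : Group.FG G) (hF : Folner G) {B : Type} [CommRing B]
    [IsDomain B] [CharZero B] {C : ℕ} (ρ : G →* Matrix (Fin C) (Fin C) B) :
    ∃ H : Subgroup G, H.FiniteIndex ∧ ∃ n : ℕ, ∀ K : Subgroup G, K ≤ H → ∀ x : K,
      x ∈ derivedSeries K n → ρ x = 1 := by
  have := IsFractionRing.charZero B
  let φ : B →+* FractionRing B := algebraMap B (FractionRing B)
  let ρ' : G →* GeneralLinearGroup (Fin C) (FractionRing B) :=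
    (φ.mapMatrix.toMonoidHom.comp ρ).toHomUnits
  obtain ⟨H, hH, hs⟩ := F.amenable_linear (FractionRing B) C G hfg hF ρ'
  obtain ⟨n, hn⟩ := hs.solvable
  refine ⟨H, hH, n, fun K hK x hx => ?_⟩
  let f : K →* H.map ρ' :=
    (ρ'.subgroupMap H).comp (Subgroup.inclusion hK)
  have h1 : f x ∈ derivedSeries (H.map ρ') n :=
    map_derivedSeries_le_derivedSeries f n ⟨x, hx, rfl⟩
  rw [hn, Subgroup.mem_bot] at h1
  have h2 : ρ' x = 1 := congrArg Subtype.val h1
  have h3 : φ.mapMatrix (ρ x) = 1 := congrArg Units.val h2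
  have h4 : Function.Injective (φ.mapMatrix : Matrix (Fin C) (Fin C) B →+* _) := by
    intro M N hMN
    ext i j
    have := congrFun (congrFun hMN i) j
    exact IsFractionRing.injective B (FractionRing B) this
  exact h4 (h3.trans (map_one _).symm)

/-- a matrix representation over a reduced ring without integer torsion -/
theorem solv_reduced {G : Type} [Group G] (hfg : Group.FG G) (hF : Folner G) {A : Type} [CommRing A]
    (hr : IsReduced A) (ht : ∀ (n : ℕ) (a : A), n ≠ 0 → (n : A) * a = 0 → a = 0) {C : ℕ}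
    (ρ : G →* Matrix (Fin C) (Fin C) A) :
    ∃ H : Subgroup G, H.FiniteIndex ∧ ∃ n : ℕ, ∀ x : H, x ∈ derivedSeries H n → ρ x = 1 := by
  classical
  obtain ⟨s, hs⟩ := exists_entries hfg ρ
  let S := Algebra.adjoin ℤ (s : Set A)
  have hft : Algebra.FiniteType ℤ S := Subalgebra.fg_iff_finiteType S |>.1 ⟨s, rfl⟩
  have hN : IsNoetherianRing S := Algebra.FiniteType.isNoetherianRing ℤ S
  have hrS : IsReduced S := isReduced_of_injective S.val Subtype.val_injective
  let ρS : G →* Matrix (Fin C) (Fin C) S :=
    { toFun := fun g => Matrix.of fun a b => ⟨ρ g a b, hs g a b⟩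
      map_one' := by
        ext a b
        simp [Matrix.one_apply]
        split_ifs <;> rfl
      map_mul' := by
        intro g h
        ext a b
        simp [Matrix.mul_apply] }
  have hfin := minimalPrimes.finite_of_isNoetherianRing S
  have key : ∀ P ∈ minimalPrimes S, ∃ H : Subgroup G, H.FiniteIndex ∧ ∃ n : ℕ,
      ∀ K : Subgroup G, ∀ hK : K ≤ H, ∀ x : K, x ∈ derivedSeries K n →
        ∀ a b, ρS x a b - (1 : Matrix (Fin C) (Fin C) S) a b ∈ P := by
    intro P hP
    have hprime : P.IsPrime := hP.1.1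
    have hcz : CharZero (S ⧸ P) := by
      refine charZero_of_inj_zero fun n hn => ?_
      by_contra hn0
      have h1 : (n : S) ∈ P := by
        rw [← Ideal.Quotient.eq_zero_iff_mem]
        simpa using hn
      have h2 : (n : S) ∈ nonZeroDivisors S := by
        rw [mem_nonZeroDivisors_iff]
        constructor
        · intro x hx
          apply Subtype.ext
          refine ht n x hn0 ?_
          have := congrArg Subtype.val hx
          simpa using this
        · intro x hx
          apply Subtype.ext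
          refine ht n x hn0 ?_
          have := congrArg Subtype.val hx
          simpa [mul_comm] using this
      exact Set.disjoint_left.1 (Ideal.disjoint_nonZeroDivisors_of_mem_minimalPrimes hP) h1 h2
    obtain ⟨H, hH, n, hn⟩ := solv_domain hfg hF
      ((Ideal.Quotient.mk P).mapMatrix.toMonoidHom.comp ρS)
    refine ⟨H, hH, n, fun K hK x hx a b => ?_⟩
    have h1 := hn K hK x hx
    have h2 := congrFun (congrFun h1 a) b
    rw [← Ideal.Quotient.eq_zero_iff_mem, map_sub, sub_eq_zero]
    have h3 : (Ideal.Quotient.mk P) ((1 : Matrix (Fin C) (Fin C) S) a b) =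
        (1 : Matrix (Fin C) (Fin C) (S ⧸ P)) a b := by
      rw [Matrix.one_apply, Matrix.one_apply]
      split_ifs <;> simp
    rw [h3]
    exact h2
  choose! H hH n hn using key
  refine ⟨⨅ P : minimalPrimes S, H P, ?_, ?_⟩
  · have := hfin.to_subtype
    exact Subgroup.finiteIndex_iInf fun P => hH P P.2
  · have hb : ∃ m, ∀ P ∈ minimalPrimes S, n P ≤ m := by
      obtain ⟨m, hm⟩ := (hfin.image n).bddAbove
      exact ⟨m, fun P hP => hm ⟨P, hP, rfl⟩⟩
    obtain ⟨m, hm⟩ := hb
    refine ⟨m, fun x hx => ?_⟩
    have h1 : ∀ a b, ρS x a b - (1 : Matrix (Fin C) (Fin C) S) a b = 0 := by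
      intro a b
      have h2 : ρS x a b - (1 : Matrix (Fin C) (Fin C) S) a b ∈ sInf (minimalPrimes S) := by
        rw [Submodule.mem_sInf]
        intro P hP
        refine hn P hP _ (iInf_le (fun P : minimalPrimes S => H P) ⟨P, hP⟩) x ?_ a b
        exact derivedSeries_antitone _ (hm P hP) hx
      have h2' : sInf (minimalPrimes S) = (⊥ : Ideal S).radical := Ideal.sInf_minimalPrimes
      have h3 : Ideal.radical (⊥ : Ideal S) = ⊥ := by
        exact nilradical_eq_zero S
      rw [h2', h3, Ideal.mem_bot] at h2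
      exact h2
    ext a b
    have h4 : ρS x a b = (1 : Matrix (Fin C) (Fin C) S) a b := sub_eq_zero.1 (h1 a b)
    have h5 : ρ x a b = (((1 : Matrix (Fin C) (Fin C) S) a b : S) : A) := congrArg Subtype.val h4
    rw [h5, Matrix.one_apply, Matrix.one_apply]
    split_ifs <;> rfl

/-- **Block X2.** -/
theorem fam_solv (G : Type) [Group G] (hfg : Group.FG G) (hF : Folner G) (C : ℕ) (ι : Type)
    (p : ι → ℕ) [∀ i, Fact (p i).Prime] (d : ι → ℕ) (hd : ∀ i, d i ≤ C)
    (R : ∀ i, G →* Matrix (Fin (d i)) (Fin (d i)) ℤ_[p i]) :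
    ∃ H : Subgroup G, H.FiniteIndex ∧ ∃ n : ℕ, ∀ h : H, h ∈ derivedSeries H n →
      ∀ i, R i h = 1 := by
  let A := ∀ i, ℤ_[p i]
  have hr : IsReduced A := inferInstance
  have ht : ∀ (n : ℕ) (a : A), n ≠ 0 → (n : A) * a = 0 → a = 0 := by
    intro n a hn h
    funext i
    have h1 := congrFun h i
    have h2 : (n : ℤ_[p i]) * a i = 0 := h1
    rcases mul_eq_zero.1 h2 with h3 | h3
    · exact absurd (Nat.cast_eq_zero.1 h3) hn
    · exact h3
  let ρ : G →* Matrix (Fin C) (Fin C) A :=
    { toFun := fun g => Matrix.of fun a b i => padHom (hd i) (R i g) a b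
      map_one' := by
        ext a b i
        simp only [Matrix.of_apply, map_one]
        rw [Matrix.one_apply, Matrix.one_apply]
        split_ifs <;> rfl
      map_mul' := by
        intro g h
        ext a b i
        simp only [Matrix.of_apply, map_mul]
        rw [Matrix.mul_apply, Matrix.mul_apply, Finset.sum_apply]
        rfl }
  obtain ⟨H, hH, n, hn⟩ := solv_reduced hfg hF hr ht ρ
  refine ⟨H, hH, n, fun h hh i => ?_⟩
  have h1 := hn h hh
  apply padHom_injective (hd i)
  rw [map_one]
  ext a b
  have h2 := congrFun (congrFun (congrFun h1 a) b) i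
  have h3 : padHom (hd i) (R i h) a b = (1 : Matrix (Fin C) (Fin C) A) a b i := h2
  rw [h3, Matrix.one_apply, Matrix.one_apply]
  split_ifs <;> rfl

end Vale.Agent.P260.H520
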