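import Mathlib
import Vale.Agent.P260.H145.RFDefs

/-!
# P260, block S4: no `(ℤ/p)²` in the finite normal image of `B` in `G/Rp p N`
-/

open scoped commutatorElement IsMulCommutative

namespace Vale.Agent.P260.H520

open Vale.Agent.P260.H145

/-- dual functionals in a vector space -/
theorem dual_pair_vs {k V : Type*} [Field k] [AddCommGroup V] [Module k V] (X Y : V) (hX : X ≠ 0)
    (hY : ∀ a : k, Y ≠ a • X) : ∃ α β : V →ₗ[k] k, α X = 1 ∧ α Y = 0 ∧ β X = 0 ∧ β Y = 1 := by
  have hli : LinearIndependent k ![X, Y] := by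
    rw [LinearIndependent.pair_iff' hX]
    intro a h
    exact hY a h.symm
  obtain ⟨g, hg⟩ := LinearMap.exists_leftInverse_of_injective
    (Finsupp.linearCombination k ![X, Y]) (LinearMap.ker_eq_bot.2 hli)
  have hX' : g X = Finsupp.single 0 1 := by
    have := LinearMap.congr_fun hg (Finsupp.single 0 1)
    simpa using this
  have hY' : g Y = Finsupp.single 1 1 := by
    have := LinearMap.congr_fun hg (Finsupp.single 1 1)
    simpa using this
  refine ⟨(Finsupp.lapply 0).comp g, (Finsupp.lapply 1).comp g, ?_, ?_, ?_, ?_⟩ <;> simp [hX', hY']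

/-- dual functionals in an abelian group of exponent `p` -/
theorem exists_dual_pair_comm (p : ℕ) [Fact p.Prime] {E : Type*} [CommGroup E]
    (hexp : ∀ e : E, e ^ p = 1) (X Y : E) (hX : X ≠ 1) (hY : Y ∉ Subgroup.zpowers X) :
    ∃ α β : E →* Multiplicative (ZMod p),
      α X = Multiplicative.ofAdd 1 ∧ α Y = 1 ∧ β X = 1 ∧ β Y = Multiplicative.ofAdd 1 := by
  let _ : Module (ZMod p) (Additive E) := AddCommGroup.zmodModule (n := p) (by
    intro e
    exact congrArg Additive.ofMul (hexp (Additive.toMul e)))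
  obtain ⟨α, β, h1, h2, h3, h4⟩ := dual_pair_vs (k := ZMod p) (V := Additive E)
    (Additive.ofMul X) (Additive.ofMul Y) (fun h => hX (Additive.ofMul.injective h)) (by
      intro a h
      apply hY
      refine ⟨a.val, ?_⟩
      have h1 : (a.val : ZMod p) = a := ZMod.natCast_zmod_val a
      rw [← h1, Nat.cast_smul_eq_nsmul] at h
      change X ^ (a.val : ℤ) = Y
      rw [zpow_natCast]
      exact (Additive.ofMul.injective h).symm)
  refine ⟨AddMonoidHom.toMultiplicativeRight α.toAddMonoidHom,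
    AddMonoidHom.toMultiplicativeRight β.toAddMonoidHom, ?_, ?_, ?_, ?_⟩
  · exact congrArg Multiplicative.ofAdd h1
  · exact congrArg Multiplicative.ofAdd h2
  · exact congrArg Multiplicative.ofAdd h3
  · exact congrArg Multiplicative.ofAdd h4

/-- two independent commuting elements of order `p` have dual functionals on the group they
generate -/
theorem exists_dual_pair (p : ℕ) [Fact p.Prime] {Q : Type*} [Group Q] (x y : Q) (hx : x ^ p = 1)
    (hy : y ^ p = 1) (hxy : x * y = y * x) (hx1 : x ≠ 1) (hyx : y ∉ Subgroup.zpowers x) :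
    ∃ α β : Subgroup.closure ({x, y} : Set Q) →* Multiplicative (ZMod p),
      α ⟨x, Subgroup.subset_closure (by simp)⟩ = Multiplicative.ofAdd 1 ∧
      α ⟨y, Subgroup.subset_closure (by simp)⟩ = 1 ∧
      β ⟨x, Subgroup.subset_closure (by simp)⟩ = 1 ∧
      β ⟨y, Subgroup.subset_closure (by simp)⟩ = Multiplicative.ofAdd 1 := by
  have hc : ∀ a ∈ ({x, y} : Set Q), ∀ b ∈ ({x, y} : Set Q), a * b = b * a := by
    intro a ha b hb
    rcases ha with rfl | ha <;> rcases hb with rfl | hb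
    · rfl
    · rw [Set.mem_singleton_iff] at hb
      rw [hb, hxy]
    · rw [Set.mem_singleton_iff] at ha
      rw [ha, hxy]
    · rw [Set.mem_singleton_iff] at ha hb
      rw [ha, hb]
  have : IsMulCommutative (Subgroup.closure ({x, y} : Set Q)) :=
    Subgroup.isMulCommutative_closure hc
  have hexp : ∀ e : Subgroup.closure ({x, y} : Set Q), e ^ p = 1 := by
    intro e
    apply Subtype.ext
    have he : (e : Q) ∈ Subgroup.closure ({x, y} : Set Q) := e.2
    have key : ∀ a ∈ Subgroup.closure ({x, y} : Set Q), a ^ p = 1 := by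
      intro a ha
      induction ha using Subgroup.closure_induction with
      | mem a ha =>
        rcases ha with rfl | ha
        · exact hx
        · rw [Set.mem_singleton_iff] at ha
          rw [ha]; exact hy
      | one => exact one_pow p
      | mul a b ha hb h1 h2 =>
        have h3 : Commute a b := by
          have := mul_comm (⟨a, ha⟩ : Subgroup.closure ({x, y} : Set Q)) ⟨b, hb⟩
          exact congrArg Subtype.val this
        rw [h3.mul_pow, h1, h2, one_mul]
      | inv a _ h1 => rw [inv_pow, h1, inv_one]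
    exact key e he
  refine exists_dual_pair_comm p hexp ⟨x, Subgroup.subset_closure (by simp)⟩
    ⟨y, Subgroup.subset_closure (by simp)⟩ (fun h => hx1 (congrArg Subtype.val h)) ?_
  rintro ⟨n, hn⟩
  exact hyx ⟨n, congrArg Subtype.val hn⟩

/-- every homomorphism from a finite index subgroup containing `U` to a finite `p`-group kills
`Rp p N` -/
theorem kills_Rp (p : ℕ) [Fact p.Prime] {G : Type*} [Group G] (N U L : Subgroup G) [U.Normal]
    [U.FiniteIndex] (hUN : U ≤ N) (hidx : ∃ a : ℕ, U.relIndex N = p ^ a) (hUL : U ≤ L)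
    (Q : Type*) [Group Q] [Finite Q] (hQ : IsPGroup p Q) (s : L →* Q) (r : L)
    (hr : (r : G) ∈ Rp p N) : s r = 1 := by
  obtain ⟨e, he⟩ := IsPGroup.iff_card.1 hQ
  let K₀ : Subgroup G := (s.ker ⊓ U.subgroupOf L).map L.subtype
  have hK₀ : ∀ g, g ∈ K₀ ↔ ∃ h : g ∈ L, s ⟨g, h⟩ = 1 ∧ g ∈ U := by
    intro g
    constructor
    · rintro ⟨⟨a, ha⟩, ⟨h1, h2⟩, rfl⟩
      exact ⟨ha, h1, h2⟩
    · rintro ⟨h, h1, h2⟩
      exact ⟨⟨g, h⟩, ⟨h1, h2⟩, rfl⟩
  have hfin₀ : K₀.FiniteIndex := by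
    have h1 : (U.subgroupOf L).FiniteIndex := inferInstance
    have h2 : s.ker.FiniteIndex := by
      have : Finite s.range := inferInstance
      exact Subgroup.finiteIndex_ker s
    have h3 : (s.ker ⊓ U.subgroupOf L).FiniteIndex := inferInstance
    have h4 : L.FiniteIndex := Subgroup.finiteIndex_of_le hUL
    constructor
    rw [Subgroup.index_map_subtype]
    exact mul_ne_zero h3.index_ne_zero h4.index_ne_zero
  have hcore : K₀.normalCore.FiniteIndex := inferInstance
  have hle : K₀.normalCore ≤ U := fun g hg => by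
    obtain ⟨_, _, h⟩ := (hK₀ g).1 (Subgroup.normalCore_le _ hg)
    exact h
  have hpow : ∀ u ∈ U, u ^ (p ^ e) ∈ K₀.normalCore := by
    intro u hu g
    have h1 : g * u * g⁻¹ ∈ U := (inferInstance : U.Normal).conj_mem u hu g
    have h2 : g * u ^ (p ^ e) * g⁻¹ = (g * u * g⁻¹) ^ (p ^ e) := (conj_pow).symm
    rw [h2]
    refine (hK₀ _).2 ⟨hUL (U.pow_mem h1 _), ?_, U.pow_mem h1 _⟩
    have h3 : (⟨(g * u * g⁻¹) ^ (p ^ e), hUL (U.pow_mem h1 _)⟩ : L) =
      ⟨g * u * g⁻¹, hUL h1⟩ ^ (p ^ e) := rfl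
    rw [h3, map_pow, ← he]
    exact pow_card_eq_one'
  have hp : ∃ b, K₀.normalCore.relIndex U = p ^ b := by
    have h1 : (K₀.normalCore.subgroupOf U).FiniteIndex := inferInstance
    have h2 : IsPGroup p (U ⧸ K₀.normalCore.subgroupOf U) := by
      intro q
      induction q using QuotientGroup.induction_on with
      | H u =>
        refine ⟨e, ?_⟩
        rw [← QuotientGroup.mk_pow, QuotientGroup.eq_one_iff, Subgroup.mem_subgroupOf]
        exact hpow u u.2
    obtain ⟨b, hb⟩ := IsPGroup.iff_card.1 h2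
    exact ⟨b, hb⟩
  obtain ⟨a, ha⟩ := hidx
  obtain ⟨b, hb⟩ := hp
  have hmem : (r : G) ∈ K₀.normalCore := by
    refine Subgroup.mem_sInf.1 hr _ ⟨inferInstance, hle.trans hUN, b + a, ?_⟩
    rw [← Subgroup.relIndex_mul_relIndex _ _ _ hle hUN, hb, ha, pow_add]
  obtain ⟨_, h, _⟩ := (hK₀ _).1 (Subgroup.normalCore_le _ hmem)
  exact h

/-- A finite normal subgroup meets some `K` of the family trivially. -/
theorem exists_U (p : ℕ) [Fact p.Prime] {G : Type*} [Group G] (N : Subgroup G) [N.Normal]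
    [N.FiniteIndex] (B : Subgroup G)
    (hfin : Finite (B.map (QuotientGroup.mk' (Rp p N)))) :
    ∃ U : Subgroup G, U.Normal ∧ U.FiniteIndex ∧ U ≤ N ∧ (∃ a : ℕ, U.relIndex N = p ^ a) ∧
      ∀ b ∈ B, b ∈ U → b ∈ Rp p N := by
  classical
  let π := QuotientGroup.mk' (Rp p N)
  have key : ∀ S : Finset (G ⧸ Rp p N), (∀ s ∈ S, s ≠ 1) →
      ∃ U : Subgroup G, U.Normal ∧ U.FiniteIndex ∧ U ≤ N ∧ (∃ a : ℕ, U.relIndex N = p ^ a) ∧
        ∀ g ∈ U, π g ∉ S := by
    intro S
    induction S using Finset.induction_on with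
    | empty =>
      intro _
      exact ⟨N, inferInstance, inferInstance, le_rfl, ⟨0, by simp⟩, by simp⟩
    | insert t S ht ih =>
      intro hS
      obtain ⟨U, hU1, hU2, hU3, ⟨a, ha⟩, hU5⟩ := ih fun s hs => hS s (Finset.mem_insert_of_mem hs)
      obtain ⟨b, rfl⟩ := QuotientGroup.mk'_surjective (Rp p N) t
      have hb : b ∉ Rp p N := by
        intro h
        exact hS _ (Finset.mem_insert_self _ _) ((QuotientGroup.eq_one_iff b).2 h)
      obtain ⟨K, ⟨hK1, hK2, ⟨c, hc⟩⟩, hbK⟩ : ∃ K : Subgroup G, (K.Normal ∧ K ≤ N ∧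
          ∃ a : ℕ, K.relIndex N = p ^ a) ∧ b ∉ K := by
        by_contra hcon
        push Not at hcon
        exact hb (Subgroup.mem_sInf.2 fun K hK => hcon K hK)
      have hKfin : K.FiniteIndex := by
        constructor
        rw [← Subgroup.relIndex_mul_index hK2, hc]
        exact mul_ne_zero (pow_ne_zero _ (Fact.out : p.Prime).ne_zero)
          (inferInstance : N.FiniteIndex).index_ne_zero
      have hRK : Rp p N ≤ K := fun r hr => Subgroup.mem_sInf.1 hr K ⟨hK1, hK2, c, hc⟩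
      refine ⟨U ⊓ K, inferInstance, inferInstance, inf_le_left.trans hU3, ?_, ?_⟩
      · have h1 : (U ⊓ K).relIndex N = (U ⊓ K).relIndex U * U.relIndex N :=
          (Subgroup.relIndex_mul_relIndex _ _ _ inf_le_left hU3).symm
        have h2 : (U ⊓ K).relIndex U ∣ K.relIndex N := by
          rw [Subgroup.inf_relIndex_left]
          have h3 : (K.subgroupOf N).relIndex (U.subgroupOf N) ∣ (K.subgroupOf N).index :=
            Subgroup.relIndex_dvd_index_of_normal _ _
          rw [Subgroup.relIndex_subgroupOf hU3] at h3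
          exact h3
        rw [hc] at h2
        obtain ⟨d, _, hd⟩ := (Nat.dvd_prime_pow Fact.out).1 h2
        exact ⟨d + a, by rw [h1, hd, ha, pow_add]⟩
      · intro g hg hgS
        rcases Finset.mem_insert.1 hgS with h | h
        · apply hbK
          have h1 : b⁻¹ * g ∈ Rp p N := QuotientGroup.eq.1 h.symm
          have h2 : b = g * (b⁻¹ * g)⁻¹ := by group
          rw [h2]
          exact K.mul_mem hg.2 (K.inv_mem (hRK h1))
        · exact hU5 g hg.1 h
  have hfin' : (B.map π : Set (G ⧸ Rp p N)).Finite := hfin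
  obtain ⟨U, hU1, hU2, hU3, hU4, hU5⟩ := key (hfin'.toFinset.erase 1)
    (fun s hs => (Finset.mem_erase.1 hs).1)
  refine ⟨U, hU1, hU2, hU3, hU4, fun b hb hbU => ?_⟩
  by_contra h
  apply hU5 b hbU
  rw [Finset.mem_erase]
  refine ⟨fun h' => h ((QuotientGroup.eq_one_iff b).1 h'), ?_⟩
  rw [Set.Finite.mem_toFinset]
  exact ⟨b, hb, rfl⟩

/-- **Block S4.** -/
theorem noPP (p : ℕ) [Fact p.Prime] {G : Type} [Group G] {C : ℕ} (D : PrimeData p G C)
    (N : Subgroup G) [N.Normal] [N.FiniteIndex] (hN : N ≤ D.N₀) (B : Subgroup G) [B.Normal]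
    (hB : B ≤ D.N₀) (hfin : Finite (B.map (QuotientGroup.mk' (Rp p N)))) :
    ∀ x ∈ B.map (QuotientGroup.mk' (Rp p N)), ∀ y ∈ B.map (QuotientGroup.mk' (Rp p N)),
      x ^ p = 1 → y ^ p = 1 → x * y = y * x → x ≠ 1 → y ∈ Subgroup.zpowers x := by
  rintro _ ⟨x, hxB, rfl⟩ _ ⟨y, hyB, rfl⟩ hxp hyp hxy hx1
  by_contra hyx
  obtain ⟨U, hUn, hUf, hUN, hUp, hBU⟩ := exists_U p N B hfin
  have hRU : Rp p N ≤ U := fun r hr => Subgroup.mem_sInf.1 hr U ⟨hUn, hUN, hUp⟩
  have hcomm : ∀ b ∈ B, ∀ u ∈ U, ⁅b, u⁆ ∈ Rp p N := by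
    intro b hb u hu
    apply hBU
    · have : ⁅b, u⁆ = b * (u * b⁻¹ * u⁻¹) := by rw [commutatorElement_def]; group
      rw [this]
      exact B.mul_mem hb ((inferInstance : B.Normal).conj_mem _ (B.inv_mem hb) u)
    · rw [commutatorElement_def]
      exact U.mul_mem (hUn.conj_mem u hu b) (U.inv_mem hu)
  -- images in `G/U`
  let π := QuotientGroup.mk' U
  have hxpU : π x ^ p = 1 := by
    rw [← map_pow]
    exact (QuotientGroup.eq_one_iff _).2 (hRU ((QuotientGroup.eq_one_iff _).1 hxp))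
  have hypU : π y ^ p = 1 := by
    rw [← map_pow]
    exact (QuotientGroup.eq_one_iff _).2 (hRU ((QuotientGroup.eq_one_iff _).1 hyp))
  have hxyR : (x * y)⁻¹ * (y * x) ∈ Rp p N := QuotientGroup.eq.1 hxy
  have hxyU : π x * π y = π y * π x := by
    rw [← map_mul, ← map_mul]
    exact QuotientGroup.eq.2 (hRU hxyR)
  have hx1U : π x ≠ 1 := fun h =>
    hx1 ((QuotientGroup.eq_one_iff _).2 (hBU x hxB ((QuotientGroup.eq_one_iff _).1 h)))
  have hyxU : π y ∉ Subgroup.zpowers (π x) := by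
    rintro ⟨n, hn⟩
    apply hyx
    refine ⟨n, ?_⟩
    have h1 : π (x ^ n) = π y := by rw [map_zpow]; exact hn
    have h2 : (x ^ n)⁻¹ * y ∈ U := QuotientGroup.eq.1 h1
    have h3 : (x ^ n)⁻¹ * y ∈ Rp p N :=
      hBU _ (B.mul_mem (B.inv_mem (B.zpow_mem hxB n)) hyB) h2
    have h4 : QuotientGroup.mk' (Rp p N) (x ^ n) = QuotientGroup.mk' (Rp p N) y :=
      QuotientGroup.eq.2 h3
    rw [map_zpow] at h4
    exact h4
  obtain ⟨α, β, hα1, hα2, hβ1, hβ2⟩ := exists_dual_pair p (π x) (π y) hxpU hypU hxyU hx1U hyxU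
  let E := Subgroup.closure ({π x, π y} : Set (G ⧸ U))
  let L : Subgroup G := E.comap π
  have hUL : U ≤ L := by
    intro u hu
    have : π u = 1 := (QuotientGroup.eq_one_iff _).2 hu
    rw [Subgroup.mem_comap, this]
    exact E.one_mem
  have hxL : x ∈ L := Subgroup.subset_closure (by simp)
  have hyL : y ∈ L := Subgroup.subset_closure (by simp)
  have hL : ∀ M : Subgroup G, U ≤ M → x ∈ M → y ∈ M → L ≤ M := by
    intro M hM hx hy g hg
    have h1 : E ≤ M.map π := by
      rw [Subgroup.closure_le]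
      rintro _ (rfl | h)
      · exact ⟨x, hx, rfl⟩
      · rw [Set.mem_singleton_iff] at h
        rw [h]
        exact ⟨y, hy, rfl⟩
    obtain ⟨m, hm, hmg⟩ := h1 hg
    have h2 : m⁻¹ * g ∈ U := QuotientGroup.eq.1 hmg
    have h3 : g = m * (m⁻¹ * g) := by group
    rw [h3]
    exact M.mul_mem hm (hM h2)
  have hLfin : L.FiniteIndex := Subgroup.finiteIndex_of_le hUL
  have hLN : L ≤ D.N₀ := hL _ (hUN.trans hN) (hB hxB) (hB hyB)
  -- centrality
  have hcent : ∀ b ∈ B, ⁅b, x⁆ ∈ Rp p N → ⁅b, y⁆ ∈ Rp p N → ∀ g ∈ L, ⁅b, g⁆ ∈ Rp p N := by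
    intro b hb hbx hby g hg
    let M : Subgroup G :=
      (Subgroup.centralizer {QuotientGroup.mk' (Rp p N) b}).comap (QuotientGroup.mk' (Rp p N))
    have hM : ∀ g, g ∈ M ↔ ⁅b, g⁆ ∈ Rp p N := by
      intro g
      rw [Subgroup.mem_comap, Subgroup.mem_centralizer_singleton_iff,
        ← QuotientGroup.eq_one_iff, ← QuotientGroup.mk'_apply, map_commutatorElement,
        commutatorElement_eq_one_iff_mul_comm]
      exact eq_comm
    exact (hM g).1 (hL M (fun u hu => (hM u).2 (hcomm b hb u hu)) ((hM x).2 hbx) ((hM y).2 hby) hg)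
  have hxyR' : ⁅x, y⁆ ∈ Rp p N := by
    rw [← QuotientGroup.eq_one_iff, ← QuotientGroup.mk'_apply, map_commutatorElement,
      commutatorElement_eq_one_iff_mul_comm]
    exact hxy
  have hyxR' : ⁅y, x⁆ ∈ Rp p N := by
    rw [← commutatorElement_inv]
    exact (Rp p N).inv_mem hxyR'
  refine D.nopair L hLfin hLN ⟨x, hxL⟩ ⟨y, hyL⟩ (α.comp (π.subgroupComap E))
    (β.comp (π.subgroupComap E)) hα1 hα2 hβ1 hβ2 ?_
  intro Q _ _ hQ s
  have hkill := kills_Rp p N U L hUN hUp hUL Q hQ s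
  refine ⟨?_, ?_, ?_⟩
  · rw [← map_pow]
    exact hkill _ ((QuotientGroup.eq_one_iff _).1 hxp)
  · rw [← map_pow]
    exact hkill _ ((QuotientGroup.eq_one_iff _).1 hyp)
  · intro g
    constructor
    · have h1 : s ⁅(⟨x, hxL⟩ : L), g⁆ = 1 :=
        hkill _ (hcent x hxB (by simp) hxyR' g g.2)
      rw [map_commutatorElement, commutatorElement_eq_one_iff_mul_comm] at h1
      exact h1
    · have h1 : s ⁅(⟨y, hyL⟩ : L), g⁆ = 1 :=
        hkill _ (hcent y hyB hyxR' (by simp) g g.2)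
      rw [map_commutatorElement, commutatorElement_eq_one_iff_mul_comm] at h1
      exact h1

end Vale.Agent.P260.H520
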